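import Vale.Agent.P132.N723.Basic
import Vale.Agent.P132.H8.Nf

/-!
# P132: the conditional expectation given by matrix units: norm and Schwarz inequality
-/

open Filter Topology
open scoped ComplexConjugate InnerProductSpace

namespace Vale.Agent.P132.N18

universe u

section hilbert

variable {E : Type u} [NormedAddCommGroup E] [InnerProductSpace ℂ E] [CompleteSpace E]

/-- matrix units on a Hilbert space -/
structure MUh {ι : Type} [Fintype ι] [DecidableEq ι] (e : ι → ι → (E →L[ℂ] E)) : Prop where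
  adj : ∀ i j, star (e i j) = e j i
  mul : ∀ i j k l, e i j * e k l = if j = k then e i l else 0
  sum : ∑ i, e i i = 1

variable {ι : Type} [Fintype ι] [DecidableEq ι] {e : ι → ι → (E →L[ℂ] E)}

theorem MUh.inner (h : MUh e) (i j k l : ι) (a b : E) :
    ⟪e i j a, e k l b⟫_ℂ = if i = k then ⟪a, e j l b⟫_ℂ else 0 := by
  have h1 : ⟪e i j a, e k l b⟫_ℂ = ⟪a, (e j i * e k l) b⟫_ℂ := by
    rw [← h.adj i j]
    show _ = ⟪a, star (e i j) (e k l b)⟫_ℂ
    rw [BC.inner_star']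
  rw [h1, h.mul]
  by_cases hik : i = k
  · rw [if_pos hik, if_pos hik]
  · rw [if_neg hik, if_neg hik]
    simp

theorem MUh.norm_eq (h : MUh e) (i j : ι) (a : E) : ‖e j i a‖ = ‖e i i a‖ := by
  have h1 := h.inner j i j i a a
  have h2 := h.inner i i i i a a
  rw [if_pos rfl] at h1 h2
  have h3 : ⟪e j i a, e j i a⟫_ℂ = ⟪e i i a, e i i a⟫_ℂ := h1.trans h2.symm
  rw [inner_self_eq_norm_sq_to_K, inner_self_eq_norm_sq_to_K] at h3
  have h4 : ‖e j i a‖ ^ 2 = ‖e i i a‖ ^ 2 := by exact_mod_cast h3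
  exact (pow_left_inj₀ (norm_nonneg _) (norm_nonneg _) two_ne_zero).1 h4

theorem MUh.sum_sq (h : MUh e) (a : E) : ∑ i, ‖e i i a‖ ^ 2 = ‖a‖ ^ 2 := by
  have h1 : a = ∑ i, e i i a := by
    have h3 := congrArg (fun T : E →L[ℂ] E => T a) h.sum
    simp only [sum_apply] at h3
    exact h3.symm
  conv_rhs => rw [h1]
  rw [norm_sum_sq]
  intro i _ j _ hij
  rw [h.inner, if_neg hij]

theorem MUh.norm_le (h : MUh e) (i j : ι) (a : E) : ‖e i j a‖ ≤ ‖a‖ := by
  rw [h.norm_eq]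
  have h1 := Finset.single_le_sum (f := fun i => ‖e i i a‖ ^ 2) (fun i _ => by positivity)
    (Finset.mem_univ j)
  rw [h.sum_sq] at h1
  exact (pow_le_pow_iff_left₀ (norm_nonneg _) (norm_nonneg _) two_ne_zero).1 h1

theorem mavg_apply (e : ι → ι → (E →L[ℂ] E)) (z : E →L[ℂ] E) (a : E) :
    mavg e z a = ∑ i, ((Fintype.card ι : ℂ)⁻¹) • ∑ j, e i j (z (e j i a)) := by
  unfold mavg
  rw [← Finset.smul_sum]
  have h1 : (((Fintype.card ι : ℂ)⁻¹) • ∑ i, ∑ j, e i j * z * e j i) a =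
      ((Fintype.card ι : ℂ)⁻¹) • ((∑ i, ∑ j, e i j * z * e j i) a) := rfl
  rw [h1, sum_apply]
  congr 1
  refine Finset.sum_congr rfl fun i _ => ?_
  rw [sum_apply]
  rfl

/-- main estimate -/
theorem MUh.mavg_sq_le (h : MUh e) (z : E →L[ℂ] E) (a : E) :
    ‖mavg e z a‖ ^ 2 ≤ ((Fintype.card ι : ℝ)⁻¹) * ∑ i, ∑ j, ‖z (e j i a)‖ ^ 2 := by
  rcases isEmpty_or_nonempty ι with hι | hι
  · rw [mavg_apply]; simp
  have hn : (0 : ℝ) < Fintype.card ι := by exact_mod_cast Fintype.card_pos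
  rw [mavg_apply, norm_sum_sq, Finset.mul_sum]
  · refine Finset.sum_le_sum fun i _ => ?_
    rw [norm_smul, mul_pow, norm_inv, Complex.norm_natCast]
    have h1 : ‖∑ j, e i j (z (e j i a))‖ ^ 2 ≤
        (Fintype.card ι : ℝ) * ∑ j, ‖z (e j i a)‖ ^ 2 := by
      have h2 : ‖∑ j, e i j (z (e j i a))‖ ≤ ∑ j, ‖z (e j i a)‖ :=
        (norm_sum_le _ _).trans (Finset.sum_le_sum fun j _ => h.norm_le i j _)
      have h3 := pow_le_pow_left₀ (norm_nonneg _) h2 2
      refine h3.trans ?_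
      have h4 := sq_sum_le_card_mul_sum_sq (s := (Finset.univ : Finset ι))
        (f := fun j => ‖z (e j i a)‖)
      rwa [Finset.card_univ] at h4
    calc ((Fintype.card ι : ℝ)⁻¹) ^ 2 * ‖∑ j, e i j (z (e j i a))‖ ^ 2
        ≤ ((Fintype.card ι : ℝ)⁻¹) ^ 2 * ((Fintype.card ι : ℝ) * ∑ j, ‖z (e j i a)‖ ^ 2) := by
          gcongr
      _ = ((Fintype.card ι : ℝ)⁻¹) * ∑ j, ‖z (e j i a)‖ ^ 2 := by
          field_simp
  · intro i _ k _ hik
    rw [inner_smul_left, inner_smul_right, sum_inner]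
    have : ∀ j ∈ Finset.univ, ⟪e i j (z (e j i a)), ∑ j, e k j (z (e j k a))⟫_ℂ = 0 := by
      intro j _
      rw [inner_sum]
      refine Finset.sum_eq_zero fun l _ => ?_
      rw [h.inner, if_neg hik]
    rw [Finset.sum_eq_zero this, mul_zero, mul_zero]

theorem MUh.norm_mavg_le (h : MUh e) (z : E →L[ℂ] E) : ‖mavg e z‖ ≤ ‖z‖ := by
  rcases isEmpty_or_nonempty ι with hι | hι
  · have : mavg e z = 0 := by unfold mavg; simp
    rw [this, norm_zero]; exact norm_nonneg _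
  have hn : (0 : ℝ) < Fintype.card ι := by exact_mod_cast Fintype.card_pos
  refine ContinuousLinearMap.opNorm_le_bound _ (norm_nonneg _) fun a => ?_
  have h1 : ‖mavg e z a‖ ^ 2 ≤ (‖z‖ * ‖a‖) ^ 2 := by
    refine (h.mavg_sq_le z a).trans ?_
    have h2 : ∀ i, ∑ j, ‖z (e j i a)‖ ^ 2 ≤ (Fintype.card ι : ℝ) * (‖z‖ ^ 2 * ‖e i i a‖ ^ 2) := by
      intro i
      rw [← nsmul_eq_mul, ← Finset.card_univ, ← Finset.sum_const]
      refine Finset.sum_le_sum fun j _ => ?_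
      rw [← mul_pow, ← h.norm_eq i j a]
      exact pow_le_pow_left₀ (norm_nonneg _) (z.le_opNorm _) 2
    calc ((Fintype.card ι : ℝ)⁻¹) * ∑ i, ∑ j, ‖z (e j i a)‖ ^ 2
        ≤ ((Fintype.card ι : ℝ)⁻¹) * ∑ i, (Fintype.card ι : ℝ) * (‖z‖ ^ 2 * ‖e i i a‖ ^ 2) := by
          gcongr with i
          exact h2 i
      _ = (‖z‖ * ‖a‖) ^ 2 := by
          rw [← Finset.mul_sum, ← Finset.mul_sum, h.sum_sq]
          field_simp
  exact (pow_le_pow_iff_left₀ (norm_nonneg _) (by positivity) two_ne_zero).1 h1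

end hilbert

variable {H : Type u} [NormedAddCommGroup H] [InnerProductSpace ℂ H] [CompleteSpace H]
variable {M : VonNeumannAlgebra H} {ι : Type} [Fintype ι] [DecidableEq ι]
  {e : ι → ι → (H →L[ℂ] H)}

theorem muh (h : MU M e) : MUh e := ⟨h.adj, h.mul, h.sum⟩

theorem muh_amp (h : MU M e) : MUh (fun i j => amp (e i j)) := by
  refine ⟨fun i j => ?_, fun i j k l => ?_, ?_⟩
  · rw [← amp_star, h.adj]
  · rw [← amp_mul, h.mul]
    split_ifs
    · rfl
    · exact amp_zero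
  · rw [← amp_sum, h.sum, amp_one]

theorem norm_mavg_le (h : MU M e) (z : H →L[ℂ] H) : ‖mavg e z‖ ≤ ‖z‖ := (muh h).norm_mavg_le z

theorem mavg_mem (h : MU M e) {z : H →L[ℂ] H} (hz : z ∈ M) : mavg e z ∈ M :=
  M.toStarSubalgebra.smul_mem (sum_mem fun i _ => sum_mem fun j _ =>
    mul_mem (mul_mem (h.mem i j) hz) (h.mem j i)) _

omit [DecidableEq ι] in
theorem amp_mavg (e : ι → ι → (H →L[ℂ] H)) (z : H →L[ℂ] H) :
    amp (mavg e z) = mavg (fun i j => amp (e i j)) (amp z) := by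
  unfold mavg
  rw [amp_smul, amp_sum]
  congr 1
  refine Finset.sum_congr rfl fun i _ => ?_
  rw [amp_sum]
  refine Finset.sum_congr rfl fun j _ => ?_
  rw [amp_mul, amp_mul]

/-- **Schwarz inequality** for vector functionals -/
theorem schwarz (h : MU M e) (z : H →L[ℂ] H) (V : EllTwo H) :
    ‖amp (mavg e z) V‖ ^ 2 ≤ (⟪V, amp (mavg e (star z * z)) V⟫_ℂ).re := by
  rw [amp_mavg]
  refine ((muh_amp h).mavg_sq_le (amp z) V).trans (le_of_eq ?_)
  rw [amp_mavg]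
  rw [mavg_apply, inner_sum, Complex.re_sum, Finset.mul_sum]
  refine Finset.sum_congr rfl fun i _ => ?_
  rw [inner_smul_right, inner_sum]
  have h1 : ∀ j, ⟪V, amp (e i j) (amp (star z * z) (amp (e j i) V))⟫_ℂ =
      ((‖amp z (amp (e j i) V)‖ ^ 2 : ℝ) : ℂ) := by
    intro j
    have h2 : amp (e i j) = star (amp (e j i)) := by rw [← amp_star, h.adj]
    rw [h2, BC.inner_star', amp_mul, amp_star]
    show ⟪amp (e j i) V, star (amp z) (amp z (amp (e j i) V))⟫_ℂ = _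
    rw [BC.inner_star', inner_self_eq_norm_sq_to_K]
    norm_cast
  simp only [h1]
  rw [← Complex.ofReal_sum]
  have h3 : ((Fintype.card ι : ℂ)⁻¹) = (((Fintype.card ι : ℝ)⁻¹ : ℝ) : ℂ) := by push_cast; rfl
  rw [h3, ← Complex.ofReal_mul, Complex.ofReal_re]

end Vale.Agent.P132.N18
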