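import Vale.Agent.P132.N18.Cond

/-!
# P132: Cuntz families and the state for which their matrix units are centralized
-/

open Filter Topology
open scoped ComplexConjugate InnerProductSpace

namespace Vale.Agent.P132.N18

universe u

variable {H : Type u} [NormedAddCommGroup H] [InnerProductSpace ℂ H] [CompleteSpace H]
variable {M : VonNeumannAlgebra H}

/-- isometries with orthogonal ranges which sum up to one -/
structure Cz (M : VonNeumannAlgebra H) {ι : Type} [Fintype ι] [DecidableEq ι]
    (s : ι → (H →L[ℂ] H)) : Prop where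
  mem : ∀ a, s a ∈ M
  orth : ∀ a b, star (s a) * s b = if a = b then 1 else 0
  sum : ∑ a, s a * star (s a) = 1

theorem exists_cz (hM : IsTypeIIIOneFactor M) {φ : (H →L[ℂ] H) → ℂ} (hφ : IsNormalState M φ)
    (hf : IsFaithful M φ) (n : ℕ) : ∃ s : Fin (n + 1) → (H →L[ℂ] H), Cz M s := by
  obtain ⟨v1, hv1, v2, hv2, h1, h2, hs, h12, h21⟩ := H8.exists_isometries hM hφ hf
  induction n with
  | zero =>
    refine ⟨fun _ => 1, fun _ => one_mem M, fun a b => ?_, ?_⟩
    · rw [if_pos (Subsingleton.elim (α := Fin 1) a b), star_one, one_mul]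
    · simp
  | succ n ih =>
    obtain ⟨s, hs0⟩ := ih
    refine ⟨Fin.cons v1 fun i => v2 * s i, ?_, ?_, ?_⟩
    · intro a
      refine Fin.cases ?_ (fun i => ?_) a
      · exact hv1
      · exact mul_mem hv2 (hs0.mem i)
    · intro a b
      refine Fin.cases ?_ (fun i => ?_) a
      · refine Fin.cases ?_ (fun j => ?_) b
        · simp only [Fin.cons_zero, if_true]; exact h1
        · simp only [Fin.cons_zero, Fin.cons_succ]
          rw [if_neg (Fin.succ_ne_zero j).symm, ← mul_assoc, h12, zero_mul]
      · refine Fin.cases ?_ (fun j => ?_) b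
        · simp only [Fin.cons_zero, Fin.cons_succ]
          rw [if_neg (Fin.succ_ne_zero i), star_mul, mul_assoc, h21, mul_zero]
        · simp only [Fin.cons_succ, Fin.succ_inj]
          rw [star_mul, mul_assoc, ← mul_assoc (star v2), h2, one_mul, hs0.orth]
    · rw [Fin.sum_univ_succ]
      simp only [Fin.cons_zero, Fin.cons_succ]
      have e : ∀ i, v2 * s i * star (v2 * s i) = v2 * (s i * star (s i)) * star v2 := by
        intro i
        rw [star_mul]; simp only [mul_assoc]
      simp only [e]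
      rw [← Finset.sum_mul, ← Finset.mul_sum, hs0.sum, mul_one, hs]

variable {ι : Type} [Fintype ι] [DecidableEq ι] {s : ι → (H →L[ℂ] H)}
  {φ : (H →L[ℂ] H) → ℂ}

/-- the matrix units of the family -/
noncomputable def fmu (s : ι → (H →L[ℂ] H)) (a b : ι) : H →L[ℂ] H := s a * star (s b)

theorem Cz.mu (h : Cz M s) : MU M (fmu s) := by
  refine ⟨fun a b => mul_mem (h.mem a) (star_mem (h.mem b)), fun a b => ?_, fun a b c d => ?_,
    h.sum⟩
  · unfold fmu; rw [star_mul, star_star]
  · unfold fmu
    have e : s a * star (s b) * (s c * star (s d)) = s a * (star (s b) * s c) * star (s d) := by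
      simp only [mul_assoc]
    rw [e, h.orth]
    split_ifs
    · rw [mul_one]
    · rw [mul_zero, zero_mul]

/-- the state -/
noncomputable def rho (φ : (H →L[ℂ] H) → ℂ) (s : ι → (H →L[ℂ] H)) (y : H →L[ℂ] H) : ℂ :=
  ((Fintype.card ι : ℂ)⁻¹) * ∑ a, φ (star (s a) * y * s a)

theorem conj_mem (h : Cz M s) {y : H →L[ℂ] H} (hy : y ∈ M) (a : ι) : star (s a) * y * s a ∈ M :=
  mul_mem (mul_mem (star_mem (h.mem a)) hy) (h.mem a)

theorem rho_normal [Nonempty ι] (h : Cz M s) (hφ : IsNormalState M φ) :
    IsNormalState M (rho φ s) := by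
  have hn : (Fintype.card ι : ℂ) ≠ 0 := by
    exact_mod_cast Fintype.card_ne_zero
  have h1 : ∀ a : ι, NPF M (fun y => (((Fintype.card ι : ℝ)⁻¹ : ℝ) : ℂ) *
      φ (star (s a) * y * s a)) ((Fintype.card ι : ℝ)⁻¹ * 1) := by
    intro a
    obtain ⟨η, h2, h3⟩ := hφ
    have h4 : NPF M φ 1 := ⟨η, 1, h2, le_rfl, h3⟩
    exact (h4.conj (h.mem a) (by rw [h.orth, if_pos rfl])).smul (by positivity)
  obtain ⟨θ, hθ, hθs⟩ := NPF.sum (Finset.univ : Finset ι) (fun a _ => h1 a)
  have h2 : ∀ x ∈ M, θ x = rho φ s x := by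
    intro x hx
    rw [hθs x hx, rho, Finset.mul_sum]
    push_cast
    rfl
  have h3 : θ 1 = 1 := by
    rw [h2 1 (one_mem M), rho]
    have : ∀ a : ι, φ (star (s a) * 1 * s a) = 1 := by
      intro a
      rw [mul_one, h.orth, if_pos rfl, state_one hφ]
    simp only [this]
    rw [Finset.sum_const, Finset.card_univ, nsmul_eq_mul, mul_one, inv_mul_cancel₀ hn]
  obtain ⟨η, h4, h5⟩ := hθ.normal h3
  exact ⟨η, h4, fun x hx => by rw [← h2 x hx]; exact h5 x hx⟩

theorem rho_faithful [Nonempty ι] (h : Cz M s) (hφ : IsNormalState M φ) (hf : IsFaithful M φ) :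
    IsFaithful M (rho φ s) := by
  intro y hy h0
  obtain ⟨V, -, hV⟩ := PD.exists_vec hφ
  have hn : ((Fintype.card ι : ℂ)⁻¹) ≠ 0 := by
    apply inv_ne_zero
    exact_mod_cast Fintype.card_ne_zero
  have h1 : ∑ a, φ (star (s a) * (star y * y) * s a) = 0 := (mul_eq_zero.1 h0).resolve_left hn
  have h2 : ∀ a, φ (star (s a) * (star y * y) * s a) = ((‖amp (y * s a) V‖ ^ 2 : ℝ) : ℂ) := by
    intro a
    have e : star (s a) * (star y * y) * s a = star (y * s a) * (y * s a) := by
      rw [star_mul]; simp only [mul_assoc]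
    have hm : y * s a ∈ M := mul_mem hy (h.mem a)
    rw [e, hV _ (mul_mem (star_mem hm) hm), amp_mul, amp_star, Cmp.inner_star_mul_self]
    norm_cast
  simp only [h2] at h1
  rw [← Complex.ofReal_sum] at h1
  have h3 : ∑ a, ‖amp (y * s a) V‖ ^ 2 = 0 := by exact_mod_cast h1
  rw [Finset.sum_eq_zero_iff_of_nonneg (fun a _ => by positivity)] at h3
  have h4 : ∀ a, y * s a = 0 := by
    intro a
    have hm : y * s a ∈ M := mul_mem hy (h.mem a)
    apply hf _ hm
    have e : star (y * s a) * (y * s a) = star (s a) * (star y * y) * s a := by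
      rw [star_mul]; simp only [mul_assoc]
    rw [e, h2, h3 a (Finset.mem_univ a)]
    simp
  calc y = y * ∑ a, s a * star (s a) := by rw [h.sum, mul_one]
    _ = ∑ a, (y * s a) * star (s a) := by rw [Finset.mul_sum]; simp only [mul_assoc]
    _ = 0 := by simp only [h4, zero_mul, Finset.sum_const_zero]

/-- the matrix units are in the centralizer -/
theorem rho_mavg [Nonempty ι] (h : Cz M s) (hφ : IsNormalState M φ) {y : H →L[ℂ] H}
    (hy : y ∈ M) : rho φ s (mavg (fmu s) y) = rho φ s y := by
  have hn : (Fintype.card ι : ℂ) ≠ 0 := by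
    exact_mod_cast Fintype.card_ne_zero
  have h1 : ∀ a, star (s a) * mavg (fmu s) y * s a =
      ((Fintype.card ι : ℂ)⁻¹) • ∑ j, star (s j) * y * s j := by
    intro a
    unfold mavg
    rw [mul_smul_comm, smul_mul_assoc]
    congr 1
    rw [Finset.mul_sum, Finset.sum_mul, Finset.sum_eq_single a]
    · rw [Finset.mul_sum, Finset.sum_mul]
      refine Finset.sum_congr rfl fun j _ => ?_
      unfold fmu
      have e : star (s a) * (s a * star (s j) * y * (s j * star (s a))) * s a =
          (star (s a) * s a) * (star (s j) * y * s j) * (star (s a) * s a) := by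
        simp only [mul_assoc]
      rw [e, h.orth, if_pos rfl, one_mul, mul_one]
    · intro b _ hb
      rw [Finset.mul_sum, Finset.sum_mul]
      refine Finset.sum_eq_zero fun j _ => ?_
      unfold fmu
      have e : star (s a) * (s b * star (s j) * y * (s j * star (s b))) * s a =
          (star (s a) * s b) * (star (s j) * y * s j) * (star (s b) * s a) := by
        simp only [mul_assoc]
      rw [e, h.orth, if_neg (Ne.symm hb), zero_mul, zero_mul]
    · intro h'
      exact absurd (Finset.mem_univ a) h'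
  have h2 : φ (((Fintype.card ι : ℂ)⁻¹) • ∑ j, star (s j) * y * s j) = rho φ s y := by
    rw [state_smul hφ _ (sum_mem fun j _ => conj_mem h hy j),
      state_sum hφ _ (fun j _ => conj_mem h hy j), rho]
  rw [rho]
  simp only [h1, h2]
  rw [Finset.sum_const, Finset.card_univ, nsmul_eq_mul, ← mul_assoc, inv_mul_cancel₀ hn, one_mul]

end Vale.Agent.P132.N18
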