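import Vale.Agent.P132.N18.Num

/-!
# P132: matrix units compatible with a partition
-/

open Filter Topology
open scoped ComplexConjugate InnerProductSpace

namespace Vale.Agent.P132.N18

universe u

variable {H : Type u} [NormedAddCommGroup H] [InnerProductSpace ℂ H] [CompleteSpace H]
variable {M : VonNeumannAlgebra H} {φ : (H →L[ℂ] H) → ℂ} {P : Finset (H →L[ℂ] H)}

theorem norm_pinch_le (hP : Part M P) (x : H →L[ℂ] H) : ‖pinch P x‖ ≤ ‖x‖ := by
  refine ContinuousLinearMap.opNorm_le_bound _ (norm_nonneg _) fun ζ => ?_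
  have h1 : ‖pinch P x ζ‖ ^ 2 = ∑ p ∈ P, ‖(p * x * p) ζ‖ ^ 2 := by
    have e : pinch P x ζ = ∑ p ∈ P, (p * x * p) ζ := by
      rw [pinch, sum_apply]
    rw [e]
    refine norm_sum_sq P _ fun p hp q hq hne => ?_
    have e1 : (p * x * p) ζ = p ((x * p) ζ) := by rw [mul_assoc]; rfl
    have e2 : (q * x * q) ζ = q ((x * q) ζ) := by rw [mul_assoc]; rfl
    rw [e1, e2, ← BC.inner_star' p, (hP.pr p hp).sa, ← mul_apply_eq_comp, hP.orth p hp q hq hne]
    simp
  have h2 : ‖ζ‖ ^ 2 = ∑ p ∈ P, ‖p ζ‖ ^ 2 := by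
    have e : ζ = ∑ p ∈ P, p ζ := by
      have h3 := congrArg (fun T : H →L[ℂ] H => T ζ) hP.sum
      simp only [sum_apply] at h3
      exact h3.symm
    conv_lhs => rw [e]
    refine norm_sum_sq P _ fun p hp q hq hne => ?_
    rw [← BC.inner_star' p, (hP.pr p hp).sa, ← mul_apply_eq_comp, hP.orth p hp q hq hne]
    simp
  have h3 : ‖pinch P x ζ‖ ^ 2 ≤ (‖x‖ * ‖ζ‖) ^ 2 := by
    rw [h1, mul_pow, h2, Finset.mul_sum]
    refine Finset.sum_le_sum fun p hp => ?_
    have e1 : (p * x * p) ζ = p (x (p ζ)) := rfl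
    rw [e1, ← mul_pow]
    have h4 : ‖p (x (p ζ))‖ ≤ ‖x‖ * ‖p ζ‖ :=
      (Gf.norm_pr_le (hP.pr p hp).sa (hP.pr p hp).idem _).trans (x.le_opNorm _)
    exact pow_le_pow_left₀ (norm_nonneg _) h4 2
  exact (pow_le_pow_iff_left₀ (norm_nonneg _) (by positivity) two_ne_zero).1 h3

/-- the matrix units `e` are compatible with the partition: `cl a` is the projection of the
partition which contains `e a a` -/
structure Cpt {ι : Type} (P : Finset (H →L[ℂ] H))
    (cl : ι → (H →L[ℂ] H)) (e : ι → ι → (H →L[ℂ] H)) : Prop where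
  mem : ∀ a, cl a ∈ P
  left : ∀ a b, cl a * e a b = e a b
  left' : ∀ p ∈ P, ∀ a b, cl a ≠ p → p * e a b = 0
  right : ∀ a b, e a b * cl b = e a b
  right' : ∀ p ∈ P, ∀ a b, cl b ≠ p → e a b * p = 0

variable {ι : Type} [Fintype ι] [DecidableEq ι] {cl : ι → (H →L[ℂ] H)}
  {e : ι → ι → (H →L[ℂ] H)}

omit [CompleteSpace H] [DecidableEq ι] in
theorem mavg_pinch (h : Cpt P cl e) (x : H →L[ℂ] H) : mavg e (pinch P x) = mavg e x := by
  unfold mavg
  congr 1
  refine Finset.sum_congr rfl fun a _ => Finset.sum_congr rfl fun b _ => ?_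
  rw [pinch, Finset.mul_sum, Finset.sum_mul, Finset.sum_eq_single (cl b)]
  · have e1 : e a b * (cl b * x * cl b) * e b a = (e a b * cl b) * x * (cl b * e b a) := by
      simp only [mul_assoc]
    rw [e1, h.right, h.left]
  · intro p hp hne
    have e1 : e a b * (p * x * p) * e b a = (e a b * p) * x * (p * e b a) := by
      simp only [mul_assoc]
    rw [e1, h.right' _ hp _ _ (Ne.symm hne), zero_mul, zero_mul]
  · intro h'
    exact absurd (h.mem b) h'

theorem mavg_diag (hmu : MU M e) (h : Cpt P cl e) (c : (H →L[ℂ] H) → ℂ) :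
    mavg e (∑ p ∈ P, c p • p) = (((Fintype.card ι : ℂ)⁻¹) * ∑ b, c (cl b)) • 1 := by
  have h1 : ∀ a b, e a b * (∑ p ∈ P, c p • p) * e b a = c (cl b) • e a a := by
    intro a b
    rw [Finset.mul_sum, Finset.sum_mul, Finset.sum_eq_single (cl b)]
    · rw [mul_smul_comm, smul_mul_assoc, h.right, hmu.mul, if_pos rfl]
    · intro p hp hne
      rw [mul_smul_comm, smul_mul_assoc, h.right' _ hp _ _ (Ne.symm hne), zero_mul, smul_zero]
    · intro h'
      exact absurd (h.mem b) h'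
  unfold mavg
  simp only [h1]
  have h2 : ∀ a, ∑ b, c (cl b) • e a a = (∑ b, c (cl b)) • e a a := by
    intro a
    rw [Finset.sum_smul]
  simp only [h2]
  rw [← Finset.smul_sum, hmu.sum, smul_smul]

omit [CompleteSpace H] [DecidableEq ι] in
theorem mavg_add (e : ι → ι → (H →L[ℂ] H)) (x y : H →L[ℂ] H) :
    mavg e (x + y) = mavg e x + mavg e y := by
  unfold mavg
  rw [← smul_add, ← Finset.sum_add_distrib]
  congr 1
  refine Finset.sum_congr rfl fun a _ => ?_
  rw [← Finset.sum_add_distrib]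
  refine Finset.sum_congr rfl fun b _ => ?_
  rw [mul_add, add_mul]

omit [CompleteSpace H] [DecidableEq ι] in
theorem sum_cl (hcl : ∀ a, cl a ∈ P) (c : (H →L[ℂ] H) → ℂ) [DecidableEq (H →L[ℂ] H)] :
    ∑ b, c (cl b) = ∑ p ∈ P, ((Finset.univ.filter fun a => cl a = p).card : ℂ) * c p := by
  rw [← Finset.sum_fiberwise_of_maps_to (s := Finset.univ) (t := P) (g := cl) (fun a _ => hcl a)]
  refine Finset.sum_congr rfl fun p _ => ?_
  rw [Finset.sum_congr rfl (g := fun _ => c p)]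
  · rw [Finset.sum_const, nsmul_eq_mul]
  · intro a ha
    rw [(Finset.mem_filter.1 ha).2]

/-- **the final estimate**, for matrix units compatible with the partition and almost centralized -/
theorem final_est [Nonempty ι] [DecidableEq (H →L[ℂ] H)] (hφ : IsNormalState M φ)
    (hf : IsFaithful M φ) (hP : Part M P) (hmu : MU M e) (h : Cpt P cl e) {d : ℝ}
    (h1 : ∀ y ∈ M, ‖φ (pinch P y) - φ y‖ ≤ d * ‖y‖)
    (h2 : ∀ y ∈ M, ‖φ (mavg e y) - φ y‖ ≤ d * ‖y‖)
    (h3 : ∑ p ∈ P, |(φ p).re - ((Finset.univ.filter fun a => cl a = p).card : ℝ) /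
      (Fintype.card ι : ℝ)| ≤ d)
    {x : H →L[ℂ] H} (hx : x ∈ M) (hx1 : ‖x‖ ≤ 1) (hd1 : d ≤ 1) :
    (φ (star (mavg e x - φ x • 1) * (mavg e x - φ x • 1))).re ≤ 2 * pot φ P x + 16 * d := by
  obtain ⟨V, hV1, hV⟩ := PD.exists_vec hφ
  have hd0 : 0 ≤ d := le_trans (Finset.sum_nonneg fun p _ => abs_nonneg _) h3
  set c : (H →L[ℂ] H) → ℂ := fun p => φ (p * x * p) / φ p with hc
  set z : H →L[ℂ] H := pinch P x - dg φ P x with hz
  have hzM : z ∈ M := sub_mem (pinch_mem hP hx) (dg_mem hP x)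
  set γ : ℂ := ((Fintype.card ι : ℂ)⁻¹) * ∑ b, c (cl b) - φ x with hγ
  have hxz : pinch P x = z + ∑ p ∈ P, c p • p := by
    rw [hz]; unfold dg; rw [hc]; abel
  have e1 : mavg e x - φ x • (1 : H →L[ℂ] H) = mavg e z + γ • 1 := by
    rw [← mavg_pinch h x, hxz, mavg_add, mavg_diag hmu h, hγ, sub_smul]
    abel
  have hn : (0 : ℝ) < Fintype.card ι := by exact_mod_cast Fintype.card_pos
  have hcle : ∀ p ∈ P, ‖c p‖ ≤ 1 := fun p hp => (coef_le hV (hP.pr p hp) hx).trans hx1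
  have hγle : ‖γ‖ ≤ 2 * d := by
    have e2 : γ = ∑ p ∈ P, ((((Finset.univ.filter fun a => cl a = p).card : ℝ) /
        (Fintype.card ι : ℝ) - (φ p).re : ℝ) : ℂ) * c p + (φ (pinch P x) - φ x) := by
      have e3 : φ (pinch P x) = ∑ p ∈ P, (((φ p).re : ℝ) : ℂ) * c p := by
        rw [pinch, state_sum hφ P (pinch_term_mem hP hx)]
        refine Finset.sum_congr rfl fun p hp => ?_
        obtain ⟨hm, hφp⟩ := Part.phi_pos hφ hf (hP.pr p hp) (hP.ne p hp)
        have hne : φ p ≠ 0 := by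
          rw [hφp]; exact_mod_cast hm.ne'
        rw [hc, ← hφp]
        field_simp
      rw [hγ, sum_cl h.mem, e3, ← add_sub_assoc, ← Finset.sum_add_distrib, Finset.mul_sum]
      congr 1
      refine Finset.sum_congr rfl fun p _ => ?_
      push_cast
      ring
    rw [e2]
    refine (norm_add_le _ _).trans ?_
    have h4 := h1 x hx
    have h5 : ‖∑ p ∈ P, ((((Finset.univ.filter fun a => cl a = p).card : ℝ) /
        (Fintype.card ι : ℝ) - (φ p).re : ℝ) : ℂ) * c p‖ ≤ d := by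
      refine (norm_sum_le _ _).trans (le_trans (Finset.sum_le_sum fun p hp => ?_) h3)
      rw [norm_mul, Complex.norm_real, Real.norm_eq_abs, abs_sub_comm]
      exact mul_le_of_le_one_right (abs_nonneg _) (hcle p hp)
    have h6 : d * ‖x‖ ≤ d := mul_le_of_le_one_right hd0 hx1
    linarith
  have hmz : mavg e z ∈ M := mavg_mem hmu hzM
  have hyM : mavg e z + γ • (1 : H →L[ℂ] H) ∈ M :=
    add_mem hmz (M.toStarSubalgebra.smul_mem (one_mem M) _)
  rw [e1, vec_sq hV hyM, amp_add, amp_smul, amp_one]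
  have hbound : ‖(amp (mavg e z) + γ • (1 : EllTwo H →L[ℂ] EllTwo H)) V‖ ^ 2 ≤
      2 * ‖amp (mavg e z) V‖ ^ 2 + 2 * ‖γ‖ ^ 2 := by
    have h4 : ‖(amp (mavg e z) + γ • (1 : EllTwo H →L[ℂ] EllTwo H)) V‖ ≤
        ‖amp (mavg e z) V‖ + ‖γ‖ := by
      have e5 : (amp (mavg e z) + γ • (1 : EllTwo H →L[ℂ] EllTwo H)) V =
          amp (mavg e z) V + γ • V := rfl
      rw [e5]
      refine (norm_add_le _ _).trans ?_
      rw [norm_smul, hV1, mul_one]
    have h5 := pow_le_pow_left₀ (norm_nonneg _) h4 2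
    nlinarith [sq_nonneg (‖amp (mavg e z) V‖ - ‖γ‖)]
  refine hbound.trans ?_
  have hs := schwarz hmu z V
  have hzz : star z * z ∈ M := mul_mem (star_mem hzM) hzM
  rw [← hV _ (mavg_mem hmu hzz)] at hs
  have h4 := h2 _ hzz
  have h5 : (φ (mavg e (star z * z))).re ≤ (φ (star z * z)).re + d * ‖star z * z‖ := by
    have h6 := Complex.abs_re_le_norm (φ (mavg e (star z * z)) - φ (star z * z))
    rw [Complex.sub_re] at h6
    have h7 := le_abs_self ((φ (mavg e (star z * z))).re - (φ (star z * z)).re)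
    linarith
  have h6 : (φ (star z * z)).re = pot φ P x := by
    rw [vec_sq hV hzM, ← diag_pot hφ hf hV hP hx]
  have hzn : ‖z‖ ≤ 2 := by
    have h7 := norm_pinch_le hP x
    have h8 := dg_norm_le hφ hP hx
    calc ‖z‖ ≤ ‖pinch P x‖ + ‖dg φ P x‖ := norm_sub_le _ _
      _ ≤ 2 := by linarith
  have hzz4 : ‖star z * z‖ ≤ 4 := by
    rw [CStarRing.norm_star_mul_self]
    nlinarith [norm_nonneg z]
  have h7 : d * ‖star z * z‖ ≤ d * 4 := mul_le_mul_of_nonneg_left hzz4 hd0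
  have h8 : ‖γ‖ ^ 2 ≤ (2 * d) ^ 2 := pow_le_pow_left₀ (norm_nonneg _) hγle 2
  have h9 : d ^ 2 ≤ d := by nlinarith
  nlinarith

end Vale.Agent.P132.N18
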