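import Vale.Agent.P132.N18.Diag

/-!
# P132: partial sums of the range projections of a Cuntz family
-/

open Filter Topology
open scoped ComplexConjugate InnerProductSpace

namespace Vale.Agent.P132.N18

universe u

variable {H : Type u} [NormedAddCommGroup H] [InnerProductSpace ℂ H] [CompleteSpace H]
variable {M : VonNeumannAlgebra H} {ι : Type} [Fintype ι] [DecidableEq ι]
  {s : ι → (H →L[ℂ] H)} {φ : (H →L[ℂ] H) → ℂ}

/-- the sum of the range projections of the members of `A` -/
noncomputable def FA (s : ι → (H →L[ℂ] H)) (A : Finset ι) : H →L[ℂ] H :=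
  ∑ a ∈ A, s a * star (s a)

theorem star_mul_FA (h : Cz M s) (A : Finset ι) (a : ι) :
    star (s a) * FA s A = if a ∈ A then star (s a) else 0 := by
  rw [FA, Finset.mul_sum]
  have h1 : ∀ b ∈ A, star (s a) * (s b * star (s b)) = if a = b then star (s b) else 0 := by
    intro b _
    rw [← mul_assoc, h.orth]
    split_ifs
    · rw [one_mul]
    · rw [zero_mul]
  rw [Finset.sum_congr rfl h1, Finset.sum_ite_eq]

omit [Fintype ι] [DecidableEq ι] in
theorem FA_star (A : Finset ι) : star (FA s A) = FA s A := by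
  rw [FA, star_sum]
  refine Finset.sum_congr rfl fun a _ => ?_
  rw [star_mul, star_star]

theorem FA_mul (h : Cz M s) (A : Finset ι) (a : ι) :
    FA s A * s a = if a ∈ A then s a else 0 := by
  have h1 := congrArg star (star_mul_FA h A a)
  rw [star_mul, star_star, FA_star] at h1
  rw [h1]
  split_ifs
  · rw [star_star]
  · rw [star_zero]

theorem FA_mem (h : Cz M s) (A : Finset ι) : FA s A ∈ M :=
  sum_mem fun a _ => mul_mem (h.mem a) (star_mem (h.mem a))

theorem FA_mul_FA (h : Cz M s) (A B : Finset ι) : FA s A * FA s B = FA s (A ∩ B) := by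
  conv_lhs => rw [FA]
  rw [Finset.sum_mul]
  have h1 : ∀ a ∈ A, s a * star (s a) * FA s B = if a ∈ B then s a * star (s a) else 0 := by
    intro a _
    rw [mul_assoc, star_mul_FA h]
    split_ifs
    · rfl
    · rw [mul_zero]
  rw [Finset.sum_congr rfl h1, ← Finset.sum_filter, Finset.filter_mem_eq_inter]
  rfl

theorem FA_pr (h : Cz M s) (A : Finset ι) : Cmp.IsPr M (FA s A) :=
  ⟨FA_mem h A, FA_star A, by rw [FA_mul_FA h, Finset.inter_self]⟩

omit [Fintype ι] in
theorem FA_orth [Fintype ι] (h : Cz M s) {A B : Finset ι} (hAB : Disjoint A B) :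
    FA s A * FA s B = 0 := by
  rw [FA_mul_FA h, Finset.disjoint_iff_inter_eq_empty.1 hAB, FA, Finset.sum_empty]

theorem FA_ne (h : Cz M s) (h10 : (1 : H →L[ℂ] H) ≠ 0) {A : Finset ι} (hA : A.Nonempty) :
    FA s A ≠ 0 := by
  obtain ⟨a, ha⟩ := hA
  intro h0
  apply h10
  have h1 := star_mul_FA h A a
  rw [h0, mul_zero, if_pos ha] at h1
  have h2 := h.orth a a
  rw [← h1, zero_mul, if_pos rfl] at h2
  exact h2.symm

theorem rho_FA (h : Cz M s) (hφ : IsNormalState M φ) (A : Finset ι) :
    rho φ s (FA s A) = (((A.card : ℝ) / (Fintype.card ι : ℝ) : ℝ) : ℂ) := by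
  have h1 : ∀ a, φ (star (s a) * FA s A * s a) = if a ∈ A then 1 else 0 := by
    intro a
    rw [star_mul_FA h]
    split_ifs
    · rw [h.orth, if_pos rfl, state_one hφ]
    · rw [zero_mul, state_zero hφ]
  rw [rho]
  simp only [h1]
  rw [Finset.sum_boole, Finset.filter_mem_eq_inter, Finset.univ_inter]
  push_cast
  rw [div_eq_inv_mul]

theorem rho_FA_conj (h : Cz M s) (hφ : IsNormalState M φ) (A : Finset ι) (y : H →L[ℂ] H) :
    rho φ s (FA s A * y * FA s A) =
      ((Fintype.card ι : ℂ)⁻¹) * ∑ a ∈ A, φ (star (s a) * y * s a) := by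
  have h1 : ∀ a, φ (star (s a) * (FA s A * y * FA s A) * s a) =
      if a ∈ A then φ (star (s a) * y * s a) else 0 := by
    intro a
    have e : star (s a) * (FA s A * y * FA s A) * s a =
        (star (s a) * FA s A) * y * (FA s A * s a) := by simp only [mul_assoc]
    rw [e, star_mul_FA h, FA_mul h]
    split_ifs
    · rfl
    · rw [zero_mul, zero_mul, state_zero hφ]
  rw [rho]
  simp only [h1]
  congr 1
  rw [← Finset.sum_filter, Finset.filter_mem_eq_inter, Finset.univ_inter]

/-- the state is diagonal -/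
theorem rho_split [DecidableEq (H →L[ℂ] H)] (h : Cz M s) (hφ : IsNormalState M φ)
    {P : Finset (H →L[ℂ] H)} {cl : ι → (H →L[ℂ] H)} (hcl : ∀ a, cl a ∈ P) (y : H →L[ℂ] H) :
    rho φ s y = ∑ p ∈ P, rho φ s (FA s (Finset.univ.filter fun a => cl a = p) * y *
      FA s (Finset.univ.filter fun a => cl a = p)) := by
  simp only [rho_FA_conj h hφ]
  rw [← Finset.mul_sum, Finset.sum_fiberwise_of_maps_to (fun a _ => hcl a)]
  rfl

/-- matrix units conjugated by a unitary -/
theorem MU.conj {f : ι → ι → (H →L[ℂ] H)} (h : MU M f) {U : H →L[ℂ] H} (hU : U ∈ M)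
    (h1 : star U * U = 1) (h2 : U * star U = 1) : MU M (fun a b => star U * f a b * U) := by
  refine ⟨fun a b => mul_mem (mul_mem (star_mem hU) (h.mem a b)) hU, fun a b => ?_,
    fun a b c d => ?_, ?_⟩
  · rw [star_mul, star_mul, star_star, h.adj, mul_assoc]
  · have e : star U * f a b * U * (star U * f c d * U) =
        star U * (f a b * (U * star U) * f c d) * U := by simp only [mul_assoc]
    rw [e, h2, mul_one, h.mul]
    split_ifs
    · rfl
    · rw [mul_zero, zero_mul]
  · rw [← Finset.sum_mul, ← Finset.mul_sum, h.sum, mul_one, h1]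

omit [DecidableEq ι] in
theorem mavg_conj (f : ι → ι → (H →L[ℂ] H)) {U : H →L[ℂ] H}
    (h2 : U * star U = 1) (y : H →L[ℂ] H) :
    U * mavg (fun a b => star U * f a b * U) y * star U = mavg f (U * y * star U) := by
  unfold mavg
  rw [mul_smul_comm, smul_mul_assoc]
  congr 1
  rw [Finset.mul_sum, Finset.sum_mul]
  refine Finset.sum_congr rfl fun a _ => ?_
  rw [Finset.mul_sum, Finset.sum_mul]
  refine Finset.sum_congr rfl fun b _ => ?_
  have e : U * (star U * f a b * U * y * (star U * f b a * U)) * star U =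
      (U * star U) * (f a b * (U * y * star U) * f b a) * (U * star U) := by
    simp only [mul_assoc]
  rw [e, h2, one_mul, mul_one]

end Vale.Agent.P132.N18
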