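import Vale.Agent.P132.N18.Pair

/-!
# P132: matrix units which are almost centralized and average finitely many elements
-/

open Filter Topology
open scoped ComplexConjugate InnerProductSpace

namespace Vale.Agent.P132.N18

universe u

variable {H : Type u} [NormedAddCommGroup H] [InnerProductSpace ℂ H] [CompleteSpace H]
variable {M : VonNeumannAlgebra H}

/-- a partition which almost preserves `φ`, with small potential -/
theorem exists_fine (hM : IsTypeIIIOneFactor M) {φ : (H →L[ℂ] H) → ℂ} (hφ : IsNormalState M φ)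
    (hf : IsFaithful M φ) {x : ℕ → (H →L[ℂ] H)} (hx : ∀ j, x j ∈ M) (hx1 : ∀ j, ‖x j‖ ≤ 1)
    (k : ℕ) {d : ℝ} (hd : 0 < d) : ∃ P : Finset (H →L[ℂ] H), Part M P ∧
      (∀ y ∈ M, ‖φ (pinch P y) - φ y‖ ≤ d * ‖y‖) ∧ ∀ j < k, pot φ P (x j) ≤ d := by
  obtain ⟨P, hP⟩ := exists_seq hM hφ hf hx hx1 (ε := d / 2) (by positivity)
  obtain ⟨ψ, -, -, hψ⟩ := exists_limit hφ (by positivity) hP
  have h1 : ∀ n, ∀ y ∈ M, ‖φ (pinch (P n) y) - φ y‖ ≤ d * ‖y‖ := by
    intro n y hy
    have h2 := hψ y hy n
    have h3 := hψ y hy 0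
    have h4 : pinch (P 0) y = y := by
      rw [hP.zero, pinch, Finset.sum_singleton, one_mul, mul_one]
    rw [h4, pow_zero, div_one] at h3
    have h5 : d / 2 * ‖y‖ / 2 ^ n ≤ d / 2 * ‖y‖ :=
      div_le_self (by positivity) (one_le_pow₀ (by norm_num))
    have e : φ (pinch (P n) y) - φ y = (φ (pinch (P n) y) - ψ y) - (φ y - ψ y) := by ring
    rw [e]
    refine (norm_sub_le _ _).trans ?_
    linarith
  have h2 : ∀ᶠ n in atTop, ∀ j < k, pot φ (P n) (x j) ≤ d := by
    have h3 : ∀ j ∈ Finset.range k, ∀ᶠ n in atTop, pot φ (P n) (x j) ≤ d := fun j _ =>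
      (hP.pot0 j).eventually (Iic_mem_nhds hd)
    filter_upwards [(Finset.eventually_all _).2 h3] with n hn j hj
    exact hn j (Finset.mem_range.2 hj)
  obtain ⟨n, hn⟩ := h2.exists
  exact ⟨P n, hP.part n, h1 n, hn⟩

theorem exists_mu (hM : IsTypeIIIOneFactor M)
    (htr : ∀ φ ψ : (H →L[ℂ] H) → ℂ, IsNormalState M φ → IsFaithful M φ → IsNormalState M ψ →
      IsFaithful M ψ → ∀ δ > 0, ∃ u ∈ M, star u * u = 1 ∧ u * star u = 1 ∧
        ∀ y ∈ M, ‖ψ y - φ (u * y * star u)‖ ≤ δ * ‖y‖)
    {φ : (H →L[ℂ] H) → ℂ} (hφ : IsNormalState M φ) (hf : IsFaithful M φ)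
    {x : ℕ → (H →L[ℂ] H)} (hx : ∀ j, x j ∈ M) (hx1 : ∀ j, ‖x j‖ ≤ 1) (k : ℕ) {δ : ℝ}
    (hδ : 0 < δ) :
    ∃ (n : ℕ) (e : Fin n → Fin n → (H →L[ℂ] H)), MU M e ∧
      (∀ y ∈ M, ‖φ (mavg e y) - φ y‖ ≤ δ * ‖y‖) ∧
      ∀ j < k, (φ (star (mavg e (x j) - φ (x j) • 1) * (mavg e (x j) - φ (x j) • 1))).re ≤ δ := by
  classical
  set d : ℝ := min 1 (δ / 32) with hd
  have hd0 : 0 < d := lt_min one_pos (by positivity)
  have hd1 : d ≤ 1 := min_le_left _ _
  have hdδ : d ≤ δ / 32 := min_le_right _ _
  have h10 : (1 : H →L[ℂ] H) ≠ 0 := by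
    intro h
    have h1 := state_one hφ
    rw [h, state_zero hφ] at h1
    exact zero_ne_one h1
  obtain ⟨P, hP, hPc, hPp⟩ := exists_fine hM hφ hf hx hx1 k (d := d / 6) (by positivity)
  obtain ⟨n, cl, hcl, hcard, hsum⟩ := exists_classes P (fun p => (φ p).re)
    (fun p hp => (Part.phi_pos hφ hf (hP.pr p hp) (hP.ne p hp)).1) (part_mass hφ hP)
    (δ := d / 6) (by positivity)
  obtain ⟨s, hs⟩ := exists_cz hM hφ hf n
  set A : (H →L[ℂ] H) → Finset (Fin (n + 1)) := fun p => Finset.univ.filter fun a => cl a = p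
    with hA
  set F : (H →L[ℂ] H) → (H →L[ℂ] H) := fun p => FA s (A p) with hF
  have hρ := rho_normal hs hφ
  have hρf := rho_faithful hs hφ hf
  set ρ := rho φ s with hρdef
  have hFpr : ∀ p, Cmp.IsPr M (F p) := fun p => FA_pr hs (A p)
  have hF0 : ∀ p ∈ P, F p ≠ 0 := fun p hp => FA_ne hs h10 (Finset.card_pos.1 (hcard p hp))
  have hρF : ∀ p, (ρ (F p)).re = ((A p).card : ℝ) / ((n + 1 : ℕ) : ℝ) := by
    intro p
    rw [hρdef, hF]
    show (rho φ s (FA s (A p))).re = _
    rw [rho_FA hs hφ, Complex.ofReal_re, Fintype.card_fin]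
  have hall : ∀ p ∈ P, ∃ t ∈ M, star t * t = p ∧ t * star t = F p ∧ ∀ y ∈ M,
      ‖φ (p * y * p) - ρ (t * y * star t)‖ ≤
        (|(φ p).re - (ρ (F p)).re| + (ρ (F p)).re * (d / 6)) * ‖y‖ := fun p hp =>
    block_pair hM htr hφ hf hρ hρf (hP.pr p hp) (hP.ne p hp) (hFpr p) (hF0 p hp)
      (by positivity)
  choose! t htM ht1 ht2 ht3 using hall
  have hFs : ∑ p ∈ P, F p = 1 := by
    rw [← hs.sum]
    exact (Finset.sum_fiberwise_of_maps_to (fun a _ => hcl a) fun a => s a * star (s a))
  have hFo : ∀ p ∈ P, ∀ q ∈ P, p ≠ q → F p * F q = 0 := by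
    intro p _ q _ hne
    refine FA_orth hs (Finset.disjoint_left.2 fun a ha ha' => hne ?_)
    rw [← (Finset.mem_filter.1 ha).2, ← (Finset.mem_filter.1 ha').2]
  obtain ⟨U, hU, hU1, hU2, hU3⟩ := patch hP htM ht1 ht2 hFo hFs
  have hσ : ∀ y ∈ M, ‖φ (pinch P y) - ρ (U * y * star U)‖ ≤ d / 3 * ‖y‖ := by
    intro y hy
    have hUy : U * y * star U ∈ M := mul_mem (mul_mem hU hy) (star_mem hU)
    have e1 : ρ (U * y * star U) = ∑ p ∈ P, ρ (t p * y * star (t p)) := by
      rw [hρdef, rho_split hs hφ hcl]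
      refine Finset.sum_congr rfl fun p hp => ?_
      congr 1
      have h1 : F p * U = t p := (hU3 p hp).2
      have h2 : star U * F p = star (t p) := by
        have := congrArg star h1
        rwa [star_mul, (hFpr p).sa] at this
      calc F p * (U * y * star U) * F p = (F p * U) * y * (star U * F p) := by
            simp only [mul_assoc]
        _ = _ := by rw [h1, h2]
    rw [pinch, state_sum hφ P (pinch_term_mem hP hy), e1, ← Finset.sum_sub_distrib]
    refine (norm_sum_le _ _).trans ((Finset.sum_le_sum fun p hp => ht3 p hp y hy).trans ?_)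
    rw [← Finset.sum_mul]
    refine mul_le_mul_of_nonneg_right ?_ (norm_nonneg _)
    rw [Finset.sum_add_distrib, ← Finset.sum_mul]
    have h1 : ∑ p ∈ P, (ρ (F p)).re = 1 := by
      rw [← Complex.re_sum, ← state_sum hρ P fun p _ => (hFpr p).mem, hFs, state_one hρ]
      rfl
    have h2 : ∑ p ∈ P, |(φ p).re - (ρ (F p)).re| ≤ d / 6 := by
      simp only [hρF]
      exact hsum
    rw [h1]
    linarith
  have hσ' : ∀ y ∈ M, ‖φ y - ρ (U * y * star U)‖ ≤ d / 2 * ‖y‖ := by
    intro y hy
    have h1 := hσ y hy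
    have h2 := hPc y hy
    have e : φ y - ρ (U * y * star U) = (φ (pinch P y) - ρ (U * y * star U)) -
        (φ (pinch P y) - φ y) := by ring
    rw [e]
    refine (norm_sub_le _ _).trans ?_
    linarith
  set e : Fin (n + 1) → Fin (n + 1) → (H →L[ℂ] H) := fun a b => star U * fmu s a b * U with he
  have hmu : MU M e := MU.conj hs.mu hU hU1 hU2
  have hclo : ∀ y ∈ M, ‖φ (mavg e y) - φ y‖ ≤ d * ‖y‖ := by
    intro y hy
    have hmM : mavg e y ∈ M := mavg_mem hmu hy
    have h1 := hσ' y hy
    have h2 := hσ' _ hmM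
    have h3 : ρ (U * mavg e y * star U) = ρ (U * y * star U) := by
      rw [he, mavg_conj (fmu s) hU2, hρdef,
        rho_mavg hs hφ (mul_mem (mul_mem hU hy) (star_mem hU))]
    rw [h3] at h2
    have h4 : d / 2 * ‖mavg e y‖ ≤ d / 2 * ‖y‖ :=
      mul_le_mul_of_nonneg_left (norm_mavg_le hmu y) (by positivity)
    have e2 : φ (mavg e y) - φ y = (φ (mavg e y) - ρ (U * y * star U)) -
        (φ y - ρ (U * y * star U)) := by ring
    rw [e2]
    refine (norm_sub_le _ _).trans ?_
    linarith
  have hUp : ∀ p ∈ P, p * star U = star U * F p := by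
    intro p hp
    have h1 : U * p = F p * U := (hU3 p hp).1.trans (hU3 p hp).2.symm
    have := congrArg star h1
    rwa [star_mul, star_mul, (hP.pr p hp).sa, (hFpr p).sa] at this
  have hUp' : ∀ p ∈ P, U * p = F p * U := fun p hp => (hU3 p hp).1.trans (hU3 p hp).2.symm
  have hmemA : ∀ a p, a ∈ A p ↔ cl a = p := by
    intro a p
    rw [hA]
    simp
  have hcpt : Cpt P cl e := by
    refine ⟨hcl, fun a b => ?_, fun p hp a b hne => ?_, fun a b => ?_, fun p hp a b hne => ?_⟩
    · show cl a * (star U * (s a * star (s b)) * U) = star U * (s a * star (s b)) * U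
      have h1 : F (cl a) * s a = s a := by
        rw [hF]
        show FA s (A (cl a)) * s a = s a
        rw [FA_mul hs, if_pos ((hmemA a _).2 rfl)]
      calc cl a * (star U * (s a * star (s b)) * U) =
            (cl a * star U) * s a * (star (s b) * U) := by simp only [mul_assoc]
        _ = star U * (F (cl a) * s a) * (star (s b) * U) := by
            rw [hUp _ (hcl a), mul_assoc (star U)]
        _ = _ := by rw [h1]; simp only [mul_assoc]
    · show p * (star U * (s a * star (s b)) * U) = 0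
      have h1 : F p * s a = 0 := by
        rw [hF]
        show FA s (A p) * s a = 0
        rw [FA_mul hs, if_neg fun h => hne ((hmemA a p).1 h)]
      calc p * (star U * (s a * star (s b)) * U) =
            (p * star U) * s a * (star (s b) * U) := by simp only [mul_assoc]
        _ = star U * (F p * s a) * (star (s b) * U) := by
            rw [hUp _ hp, mul_assoc (star U)]
        _ = _ := by rw [h1, mul_zero, zero_mul]
    · show star U * (s a * star (s b)) * U * cl b = star U * (s a * star (s b)) * U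
      have h1 : star (s b) * F (cl b) = star (s b) := by
        rw [hF]
        show star (s b) * FA s (A (cl b)) = star (s b)
        rw [star_mul_FA hs, if_pos ((hmemA b _).2 rfl)]
      calc star U * (s a * star (s b)) * U * cl b =
            star U * s a * (star (s b) * (U * cl b)) := by simp only [mul_assoc]
        _ = star U * s a * ((star (s b) * F (cl b)) * U) := by
            rw [hUp' _ (hcl b), mul_assoc (star (s b))]
        _ = _ := by rw [h1]; simp only [mul_assoc]
    · show star U * (s a * star (s b)) * U * p = 0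
      have h1 : star (s b) * F p = 0 := by
        rw [hF]
        show star (s b) * FA s (A p) = 0
        rw [star_mul_FA hs, if_neg fun h => hne ((hmemA b p).1 h)]
      calc star U * (s a * star (s b)) * U * p =
            star U * s a * (star (s b) * (U * p)) := by simp only [mul_assoc]
        _ = star U * s a * ((star (s b) * F p) * U) := by
            rw [hUp' _ hp, mul_assoc (star (s b))]
        _ = _ := by rw [h1, zero_mul, mul_zero]
  refine ⟨n + 1, e, hmu, fun y hy => (hclo y hy).trans ?_, fun j hj => ?_⟩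
  · refine mul_le_mul_of_nonneg_right ?_ (norm_nonneg _)
    linarith
  · have h1 := final_est hφ hf hP hmu hcpt (d := d)
      (fun y hy => (hPc y hy).trans (mul_le_mul_of_nonneg_right (by linarith) (norm_nonneg _)))
      hclo (by
        rw [Fintype.card_fin]
        refine le_trans hsum ?_
        linarith) (hx j) (hx1 j) hd1
    have h2 := hPp j hj
    linarith

end Vale.Agent.P132.N18
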