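import Vale.Agent.P132.N18.Cuntz

/-!
# P132: rational approximation of the weights of a partition
-/

open Filter Topology
open scoped ComplexConjugate InnerProductSpace

namespace Vale.Agent.P132.N18

/-- weights are approximated by the class sizes of a finite set -/
theorem exists_classes {κ : Type*} (P : Finset κ) (m : κ → ℝ) (hm : ∀ p ∈ P, 0 < m p)
    (hsum : ∑ p ∈ P, m p = 1) {δ : ℝ} (hδ : 0 < δ) [DecidableEq κ] :
    ∃ (n : ℕ) (cl : Fin (n + 1) → κ), (∀ a, cl a ∈ P) ∧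
      (∀ p ∈ P, 0 < (Finset.univ.filter fun a => cl a = p).card) ∧
      ∑ p ∈ P, |m p - ((Finset.univ.filter fun a => cl a = p).card : ℝ) / (n + 1 : ℕ)| ≤ δ := by
  obtain ⟨N, hN⟩ := exists_nat_gt ((2 * P.card) / δ)
  have hPne : P.Nonempty := by
    by_contra h
    rw [Finset.not_nonempty_iff_eq_empty] at h
    rw [h] at hsum
    simp at hsum
  have hPc : (0 : ℝ) < P.card := by exact_mod_cast hPne.card_pos
  have hN0 : (0 : ℝ) < N := lt_trans (by positivity) hN
  let k : κ → ℕ := fun p => ⌈(N : ℝ) * m p⌉₊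
  have hk0 : ∀ p ∈ P, 0 < k p := fun p hp => Nat.ceil_pos.2 (mul_pos hN0 (hm p hp))
  have hk1 : ∀ p ∈ P, (N : ℝ) * m p ≤ k p := fun p _ => Nat.le_ceil _
  have hk2 : ∀ p ∈ P, (k p : ℝ) < (N : ℝ) * m p + 1 := fun p hp =>
    Nat.ceil_lt_add_one (mul_pos hN0 (hm p hp)).le
  let T := Σ p : {p // p ∈ P}, Fin (k p)
  have hcT : Fintype.card T = ∑ p ∈ P, k p := by
    rw [Fintype.card_sigma]
    simp only [Fintype.card_fin]
    exact Finset.sum_coe_sort P k
  have hTpos : 0 < Fintype.card T := by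
    rw [hcT]
    exact Finset.sum_pos hk0 hPne
  obtain ⟨n, hn⟩ : ∃ n, Fintype.card T = n + 1 := ⟨Fintype.card T - 1, by omega⟩
  let E : T ≃ Fin (n + 1) := Fintype.equivFinOfCardEq hn
  let cl : Fin (n + 1) → κ := fun a => (E.symm a).1
  have hcard : ∀ p ∈ P, (Finset.univ.filter fun a => cl a = p).card = k p := by
    intro p hp
    have h1 : (Finset.univ.filter fun a => cl a = p) =
        (Finset.univ : Finset (Fin (k p))).image (fun i => E ⟨⟨p, hp⟩, i⟩) := by
      ext a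
      simp only [Finset.mem_filter, Finset.mem_univ, true_and, Finset.mem_image]
      obtain ⟨⟨⟨q, hq⟩, i⟩, rfl⟩ := E.surjective a
      have hclq : cl (E ⟨⟨q, hq⟩, i⟩) = q := by simp [cl]
      rw [hclq]
      constructor
      · rintro rfl
        exact ⟨i, rfl⟩
      · rintro ⟨j, hj⟩
        have h2 := E.injective hj
        have h3 := congrArg (fun t : T => (t.1 : κ)) h2
        exact h3.symm
    rw [h1, Finset.card_image_of_injective, Finset.card_univ, Fintype.card_fin]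
    intro i j hij
    exact eq_of_heq (Sigma.mk.inj_iff.1 (E.injective hij)).2
  refine ⟨n, cl, fun a => (E.symm a).1.2, fun p hp => by rw [hcard p hp]; exact hk0 p hp, ?_⟩
  have hn' : ((n + 1 : ℕ) : ℝ) = ∑ p ∈ P, (k p : ℝ) := by
    rw [← hn, hcT]; push_cast; rfl
  have hnN : (N : ℝ) ≤ ((n + 1 : ℕ) : ℝ) := by
    rw [hn']
    calc (N : ℝ) = ∑ p ∈ P, (N : ℝ) * m p := by rw [← Finset.mul_sum, hsum, mul_one]
      _ ≤ _ := Finset.sum_le_sum hk1
  have hnN2 : ((n + 1 : ℕ) : ℝ) ≤ N + P.card := by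
    rw [hn']
    calc ∑ p ∈ P, (k p : ℝ) ≤ ∑ p ∈ P, ((N : ℝ) * m p + 1) :=
          Finset.sum_le_sum fun p hp => (hk2 p hp).le
      _ = N + P.card := by
          rw [Finset.sum_add_distrib, ← Finset.mul_sum, hsum, mul_one]; simp
  have hnpos : (0 : ℝ) < ((n + 1 : ℕ) : ℝ) := lt_of_lt_of_le hN0 hnN
  have hterm : ∀ p ∈ P, |m p - ((Finset.univ.filter fun a => cl a = p).card : ℝ) / (n + 1 : ℕ)| ≤
      (1 + P.card * m p) / N := by
    intro p hp
    rw [hcard p hp]
    have e : m p - (k p : ℝ) / ((n + 1 : ℕ) : ℝ) =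
        (((n + 1 : ℕ) : ℝ) * m p - k p) / ((n + 1 : ℕ) : ℝ) := by
      field_simp
    rw [e, abs_div, abs_of_pos hnpos]
    have h1 : |((n + 1 : ℕ) : ℝ) * m p - k p| ≤ 1 + P.card * m p := by
      rw [abs_le]
      have h2 := hk1 p hp
      have h3 := hk2 p hp
      have h4 := (hm p hp).le
      have h5 : (N : ℝ) * m p ≤ ((n + 1 : ℕ) : ℝ) * m p := mul_le_mul_of_nonneg_right hnN h4
      have h6 : ((n + 1 : ℕ) : ℝ) * m p ≤ (N + P.card) * m p := mul_le_mul_of_nonneg_right hnN2 h4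
      constructor
      · have : 0 ≤ (P.card : ℝ) * m p := by positivity
        linarith
      · linarith
    have h7 : 0 ≤ 1 + (P.card : ℝ) * m p := by
      have := (hm p hp).le
      positivity
    calc |((n + 1 : ℕ) : ℝ) * m p - k p| / ((n + 1 : ℕ) : ℝ)
        ≤ (1 + P.card * m p) / ((n + 1 : ℕ) : ℝ) := by gcongr
      _ ≤ (1 + P.card * m p) / N := by gcongr
  refine (Finset.sum_le_sum hterm).trans ?_
  rw [← Finset.sum_div, Finset.sum_add_distrib, ← Finset.mul_sum, hsum, mul_one]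
  simp only [Finset.sum_const, nsmul_eq_mul, mul_one]
  rw [div_lt_iff₀ hδ] at hN
  rw [div_le_iff₀ hN0]
  linarith

end Vale.Agent.P132.N18
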