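import Vale.Agent.P132.N18.FA

/-!
# P132: one block of the unitary
-/

open Filter Topology
open scoped ComplexConjugate InnerProductSpace

namespace Vale.Agent.P132.N18

universe u

variable {H : Type u} [NormedAddCommGroup H] [InnerProductSpace ℂ H] [CompleteSpace H]
variable {M : VonNeumannAlgebra H}

theorem norm_conj_le {a b y : H →L[ℂ] H} (ha : ‖a‖ ≤ 1) (hb : ‖b‖ ≤ 1) : ‖a * y * b‖ ≤ ‖y‖ := by
  calc ‖a * y * b‖ ≤ ‖a‖ * ‖y‖ * ‖b‖ :=
        (norm_mul_le _ _).trans (mul_le_mul_of_nonneg_right (norm_mul_le _ _) (norm_nonneg _))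
    _ ≤ 1 * ‖y‖ * 1 := by gcongr
    _ = ‖y‖ := by ring

theorem block_pair (hM : IsTypeIIIOneFactor M)
    (htr : ∀ φ ψ : (H →L[ℂ] H) → ℂ, IsNormalState M φ → IsFaithful M φ → IsNormalState M ψ →
      IsFaithful M ψ → ∀ δ > 0, ∃ u ∈ M, star u * u = 1 ∧ u * star u = 1 ∧
        ∀ y ∈ M, ‖ψ y - φ (u * y * star u)‖ ≤ δ * ‖y‖)
    {φ ρ : (H →L[ℂ] H) → ℂ} (hφ : IsNormalState M φ) (hf : IsFaithful M φ)
    (hρ : IsNormalState M ρ) (hρf : IsFaithful M ρ)
    {p F : H →L[ℂ] H} (hp : Cmp.IsPr M p) (hp0 : p ≠ 0) (hF : Cmp.IsPr M F) (hF0 : F ≠ 0)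
    {δ : ℝ} (hδ : 0 < δ) :
    ∃ t ∈ M, star t * t = p ∧ t * star t = F ∧ ∀ y ∈ M,
      ‖φ (p * y * p) - ρ (t * y * star t)‖ ≤ (|(φ p).re - (ρ F).re| + (ρ F).re * δ) * ‖y‖ := by
  obtain ⟨w, hw, hw1, hw2⟩ := H8.all_equiv hM hφ hf hp.mem hp.sa hp.idem hp0
  obtain ⟨g, hg, hg1, hg2⟩ := H8.all_equiv hM hρ hρf hF.mem hF.sa hF.idem hF0
  obtain ⟨hm, hφp⟩ := Part.phi_pos hφ hf hp hp0
  obtain ⟨hm', hρF⟩ := Part.phi_pos hρ hρf hF hF0
  set m : ℝ := (φ p).re with hmdef
  set m' : ℝ := (ρ F).re with hmdef'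
  have hmC : (m : ℂ) ≠ 0 := by exact_mod_cast hm.ne'
  have hmC' : (m' : ℂ) ≠ 0 := by exact_mod_cast hm'.ne'
  set φ' : (H →L[ℂ] H) → ℂ := fun y => (m : ℂ)⁻¹ * φ (w * y * star w) with hφ'
  set ρ' : (H →L[ℂ] H) → ℂ := fun y => (m' : ℂ)⁻¹ * ρ (g * y * star g) with hρ'
  have hφn : IsNormalState M φ' := corner_state hφ hw hm (by rw [hw2, hφp])
  have hφf : IsFaithful M φ' := corner_faithful hf hw hw1 hm
  have hρn : IsNormalState M ρ' := corner_state hρ hg hm' (by rw [hg2, hρF])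
  have hρf' : IsFaithful M ρ' := corner_faithful hρf hg hg1 hm'
  obtain ⟨u, hu, hu1, hu2, hu3⟩ := htr ρ' φ' hρn hρf' hφn hφf δ hδ
  have hφw : ∀ y, φ (w * y * star w) = m * φ' y := by
    intro y
    show _ = (m : ℂ) * ((m : ℂ)⁻¹ * φ (w * y * star w))
    rw [← mul_assoc, mul_inv_cancel₀ hmC, one_mul]
  have hρg : ∀ y, ρ (g * y * star g) = m' * ρ' y := by
    intro y
    show _ = (m' : ℂ) * ((m' : ℂ)⁻¹ * ρ (g * y * star g))
    rw [← mul_assoc, mul_inv_cancel₀ hmC', one_mul]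
  refine ⟨g * u * star w, mul_mem (mul_mem hg hu) (star_mem hw), ?_, ?_, fun y hy => ?_⟩
  · have e : star (g * u * star w) * (g * u * star w) =
        w * (star u * (star g * g) * u) * star w := by
      rw [star_mul, star_mul, star_star]; simp only [mul_assoc]
    rw [e, hg1, mul_one, hu1, mul_one, hw2]
  · have e : g * u * star w * star (g * u * star w) =
        g * (u * (star w * w) * star u) * star g := by
      rw [star_mul, star_mul, star_star]; simp only [mul_assoc]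
    rw [e, hw1, mul_one, hu2, mul_one, hg2]
  · set z := star w * y * w with hz
    have hzM : z ∈ M := mul_mem (mul_mem (star_mem hw) hy) hw
    have hw0 : ‖w‖ ≤ 1 := H8.isometry_norm_le hw1
    have hzn : ‖z‖ ≤ ‖y‖ := norm_conj_le (by rw [norm_star]; exact hw0) hw0
    have e1 : p * y * p = w * z * star w := by
      rw [hz, ← hw2]; simp only [mul_assoc]
    have e2 : g * u * star w * y * star (g * u * star w) = g * (u * z * star u) * star g := by
      rw [star_mul, star_mul, star_star, hz]; simp only [mul_assoc]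
    rw [e1, e2, hφw, hρg]
    have e3 : (m : ℂ) * φ' z - m' * ρ' (u * z * star u) =
        ((m - m' : ℝ) : ℂ) * φ' z + m' * (φ' z - ρ' (u * z * star u)) := by
      push_cast; ring
    have e4 : ∀ (r : ℝ) (c : ℂ), ‖(r : ℂ) * c‖ = |r| * ‖c‖ := fun r c => by
      rw [norm_mul, Complex.norm_real, Real.norm_eq_abs]
    rw [e3]
    refine (norm_add_le _ _).trans ?_
    rw [e4, e4, abs_of_pos hm', add_mul]
    refine add_le_add ?_ ?_
    · exact mul_le_mul_of_nonneg_left ((state_norm_le hφn hzM).trans hzn) (abs_nonneg _)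
    · rw [mul_assoc m' δ]
      refine mul_le_mul_of_nonneg_left ((hu3 z hzM).trans ?_) hm'.le
      exact mul_le_mul_of_nonneg_left hzn hδ.le

/-- the unitary -/
theorem patch {P : Finset (H →L[ℂ] H)} (hP : Part M P) {t F : (H →L[ℂ] H) → (H →L[ℂ] H)}
    (ht : ∀ p ∈ P, t p ∈ M) (h1 : ∀ p ∈ P, star (t p) * t p = p)
    (h2 : ∀ p ∈ P, t p * star (t p) = F p) (hF : ∀ p ∈ P, ∀ q ∈ P, p ≠ q → F p * F q = 0)
    (hFs : ∑ p ∈ P, F p = 1) :
    ∃ U ∈ M, star U * U = 1 ∧ U * star U = 1 ∧ ∀ p ∈ P, U * p = t p ∧ F p * U = t p := by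
  have htp : ∀ p ∈ P, t p * p = t p := by
    intro p hp
    have hpp := hP.pr p hp
    have e : star (t p * p - t p) * (t p * p - t p) = 0 := by
      have e1 : star (t p * p - t p) * (t p * p - t p) =
          p * (star (t p) * t p) * p - p * (star (t p) * t p) - (star (t p) * t p) * p +
            star (t p) * t p := by
        rw [star_sub, star_mul, hpp.sa]
        noncomm_ring
      rw [e1, h1 p hp, hpp.idem, hpp.idem]
      simp
    have e2 := CStarRing.norm_star_mul_self (x := t p * p - t p)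
    rw [e, norm_zero] at e2
    have e3 : ‖t p * p - t p‖ = 0 := by
      rcases mul_eq_zero.1 e2.symm with h | h <;> exact h
    exact sub_eq_zero.1 (norm_eq_zero.1 e3)
  have hFt : ∀ p ∈ P, F p * t p = t p := by
    intro p hp
    rw [← h2 p hp, mul_assoc, h1 p hp, htp p hp]
  have hst : ∀ p ∈ P, p * star (t p) = star (t p) := by
    intro p hp
    have := congrArg star (htp p hp)
    rwa [star_mul, (hP.pr p hp).sa] at this
  have hFs' : ∀ p ∈ P, star (F p) = F p := by
    intro p hp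
    rw [← h2 p hp, star_mul, star_star]
  have hsF : ∀ p ∈ P, star (t p) * F p = star (t p) := by
    intro p hp
    have := congrArg star (hFt p hp)
    rwa [star_mul, hFs' p hp] at this
  refine ⟨∑ p ∈ P, t p, sum_mem ht, ?_, ?_, fun p hp => ⟨?_, ?_⟩⟩
  · rw [star_sum, Finset.sum_mul, ← hP.sum]
    refine Finset.sum_congr rfl fun p hp => ?_
    rw [Finset.mul_sum, Finset.sum_eq_single p]
    · exact h1 p hp
    · intro q hq hne
      rw [← hsF p hp, ← hFt q hq, mul_assoc, ← mul_assoc (F p), hF p hp q hq (Ne.symm hne),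
        zero_mul, mul_zero]
    · intro h'
      exact absurd hp h'
  · rw [star_sum, Finset.sum_mul, ← hFs]
    refine Finset.sum_congr rfl fun p hp => ?_
    rw [Finset.mul_sum, Finset.sum_eq_single p]
    · exact h2 p hp
    · intro q hq hne
      rw [← htp p hp, ← hst q hq, mul_assoc, ← mul_assoc p, hP.orth p hp q hq (Ne.symm hne),
        zero_mul, mul_zero]
    · intro h'
      exact absurd hp h'
  · rw [Finset.sum_mul, Finset.sum_eq_single p]
    · exact htp p hp
    · intro q hq hne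
      rw [← htp q hq, mul_assoc, hP.orth q hq p hp hne, mul_zero]
    · intro h'
      exact absurd hp h'
  · rw [Finset.mul_sum, Finset.sum_eq_single p]
    · exact hFt p hp
    · intro q hq hne
      rw [← hFt q hq, ← mul_assoc, hF p hp q hq (Ne.symm hne), zero_mul]
    · intro h'
      exact absurd hp h'

end Vale.Agent.P132.N18
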